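import Vale.Agent.P155.NT904.Class

/-!
# P155, SW, block (5): different loops do not touch (interface)

`Touch2c` (lattice level): two different loops which both meet the line `x = xS` do not come near
to each other in `box q r`, which is far from this line. `SEP2`: the form for approximations.
-/

namespace Vale.Agent.P155.SW276

open Topology Filter MeasureTheory TopologicalSpace Vale.Agent.P155 Vale.Agent.P155.Q1 Skel NT

/-- Two different loops, which both meet the line `x = xS`, are at distance `≤ e` in `box q r`. -/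
def Touch2 (xS : ℤ) (q : Pt) (r e : ℕ) (ω : Conf) : Prop :=
  ∃ v w, ω.1 v ≠ ω.2 v ∧ ω.1 w ≠ ω.2 w ∧ comp ω v ≠ comp ω w ∧ dn q v ≤ r ∧ dn v w ≤ e ∧
    (∃ y, (xS, y) ∈ comp ω v) ∧ ∃ y, (xS, y) ∈ comp ω w

/-- the estimate for two loops, for the polygons of the class `Cl` -/
def Touch2c (Cl : ℕ → Temp → Prop) : Prop :=
  ∀ c ε : ℝ, 0 < c → 0 < ε → ∀ K : ℕ, ∃ η : ℝ, 0 < η ∧ ∃ R0 : ℕ, ∀ R : ℕ, R0 ≤ R → ∀ T : Temp,
    Fits T R → Cl R T → ∀ (xS : ℤ) (q : Pt) (r : ℕ), c * R ≤ r → (16 * r : ℤ) ≤ |q.1 - xS| →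
    Pr T.V (fun ω => Touch2 xS q r ⌊η * R⌋₊ ω ∧ NX ω q (2 * r) (4 * r) ≤ K) ≤ ε

/-- **Touch2All**: output of the lattice half -/
def Touch2All : Prop :=
  ∀ {Ω : Set ℂ}, IsOpen Ω → Bornology.IsBounded Ω → Ω.Nonempty → SimplyConnectedSpace Ω →
    ∀ (S : TempApprox Ω) (M : ℝ), 0 < M → Touch2c (FS M S)

/-- number of the column of the grid `a + δ ℤ²` below the abscissa `x0` -/
noncomputable def col (δ : ℝ) (a : ℂ) (x0 : ℝ) : ℤ := ⌊(x0 - a.re) / δ⌋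

/-- two different loops, which both meet the line `Re = x0`, come within `η` off the strip
`|Re - x0| < ρ` -/
def Near2 {Ω : Set ℂ} (S : TempApprox Ω) (n : ℕ) (x0 ρ η : ℝ) (ω : Conf) : Prop :=
  ∃ v w, ω.1 v ≠ ω.2 v ∧ ω.1 w ≠ ω.2 w ∧ comp ω v ≠ comp ω w ∧
      ρ ≤ |(pt (S.δ n) (S.a n) v).re - x0| ∧
      dist (pt (S.δ n) (S.a n) v) (pt (S.δ n) (S.a n) w) ≤ η ∧
      (∃ y, (col (S.δ n) (S.a n) x0, y) ∈ comp ω v) ∧
      ∃ y, (col (S.δ n) (S.a n) x0, y) ∈ comp ω w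

/-- **SEP2** -/
def SEP2 : Prop :=
  ∀ Ω : Set ℂ, IsOpen Ω → Bornology.IsBounded Ω → Ω.Nonempty → SimplyConnectedSpace Ω →
  ∀ S : TempApprox Ω, ∀ x0 ρ : ℝ, 0 < ρ → ∀ ε : ℝ, 0 < ε → ∃ η : ℝ, 0 < η ∧ ∀ᶠ n in atTop,
    Pr (S.T n).V (Near2 S n x0 ρ η) ≤ ε

end Vale.Agent.P155.SW276
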