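import Vale.Agent.P155.SW276.Defs

/-!
# P155, SW, block (5): `SEP2` from `TOUCH2P`
-/

namespace Vale.Agent.P155.SW276

open Topology Filter MeasureTheory TopologicalSpace Vale.Agent.P155 Vale.Agent.P155.Q1 Skel NT

theorem Touch2.mono {xS : ℤ} {q : Pt} {r e e' : ℕ} (h : e ≤ e') {ω : Conf}
    (h1 : Touch2 xS q r e ω) : Touch2 xS q r e' ω := by
  obtain ⟨v, w, a1, a2, a3, a4, a5, a6⟩ := h1
  exact ⟨v, w, a1, a2, a3, a4, a5.trans h, a6⟩

/-- the box of a point off the strip is far from the line -/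
theorem off_line {δ : ℝ} (hδ : 0 < δ) (a : ℂ) {x0 ρ : ℝ} {v : Pt} {r : ℕ} (hr0 : 0 < r)
    (hδr : δ * (400 * r) ≤ ρ) (hoff : ρ ≤ |(pt δ a v).re - x0|) {k : ℤ}
    (a1 : k * r ≤ v.1) (a2 : v.1 < k * r + r) :
    (16 * (2 * r : ℕ) : ℤ) ≤ |k * r - col δ a x0| := by
  have hr' : (0 : ℤ) < r := by exact_mod_cast hr0
  set xS : ℤ := col δ a x0 with hxS
  have e1 : (pt δ a v).re = a.re + δ * v.1 := pt_re _ _ _
  rw [e1] at hoff
  have f1 : (xS : ℝ) ≤ (x0 - a.re) / δ := Int.floor_le _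
  have f2 : (x0 - a.re) / δ < xS + 1 := Int.lt_floor_add_one _
  rw [le_div_iff₀ hδ] at f1
  rw [div_lt_iff₀ hδ] at f2
  have g : (400 * r : ℝ) - 1 ≤ |(v.1 : ℝ) - xS| := by
    rcases le_total 0 (a.re + δ * v.1 - x0) with h | h
    · rw [abs_of_nonneg h] at hoff
      refine le_trans ?_ (le_abs_self _)
      have : (400 * r - 1 - ((v.1 : ℝ) - xS)) * δ ≤ 0 := by linarith
      have := nonpos_of_mul_nonpos_left this hδ
      linarith
    · rw [abs_of_nonpos h] at hoff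
      refine le_trans ?_ (neg_le_abs _)
      have : (400 * r - 1 + ((v.1 : ℝ) - xS)) * δ ≤ 0 := by linarith
      have := nonpos_of_mul_nonpos_left this hδ
      linarith
  have g2 : (400 * r : ℤ) - 1 ≤ |v.1 - xS| := by
    have : ((400 * r - 1 : ℤ) : ℝ) ≤ ((|v.1 - xS| : ℤ) : ℝ) := by
      push_cast
      exact g
    exact_mod_cast this
  push_cast
  have g3 : |v.1 - xS| ≤ |k * r - xS| + r := by
    have := abs_add_le (k * r - xS) (v.1 - k * r)
    have e : k * r - xS + (v.1 - k * r) = v.1 - xS := by ring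
    rw [e] at this
    have h5 : |v.1 - k * r| ≤ r := by
      rw [abs_le]
      constructor <;> linarith
    linarith
  linarith

/-- covering by the net of boxes -/
theorem cover {Ω : Set ℂ} {S : TempApprox Ω} {n : ℕ} {M ρ η x0 : ℝ} (hη0 : 0 < η) {N K r R : ℕ}
    (hρ : 0 < ρ) (hfit : Fits (S.T n) R) (hr0 : 0 < r) (hδr : S.δ n * (400 * r) ≤ ρ)
    (hδr' : ρ ≤ S.δ n * (800 * r)) (hR1 : M / S.δ n ≤ R) (h4 : (R : ℤ) + 1 ≤ N * r) {ω : Conf}
    (hω : ω ∈ DD (S.T n).V)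
    (h : Near2 S n x0 ρ (min (η * M) (ρ / 1600)) ω) :
    ManyP S n (ρ / 400) K ω ∨ ∃ p ∈ (net N).filter
        (fun p => (16 * (2 * r : ℕ) : ℤ) ≤ |(ctrN r p).1 - col (S.δ n) (S.a n) x0|),
        (Touch2 (col (S.δ n) (S.a n) x0) (ctrN r p) (2 * r) ⌊η * R⌋₊ ω ∧
          NX ω (ctrN r p) (2 * (2 * r)) (4 * (2 * r)) ≤ K) := by
  have hδ := S.pos n
  set δ := S.δ n with hδdef
  set a := S.a n with hadef
  obtain ⟨v, w, hv, hw, hvw, hoff, hd, hmv, hmw⟩ := h
  rw [← hδdef, ← hadef] at hoff hd hmv hmw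
  have hvV : v ∈ (S.T n).V := mem_V_of_loop hω hv
  obtain ⟨h1, h2⟩ := abs_le_of_fits hfit hvV
  obtain ⟨k, l, hkl, ⟨a1, a2⟩, b1, b2⟩ := exists_ctr hr0 (h1.trans h4) (h2.trans h4)
  have hr' : (0 : ℤ) < r := by exact_mod_cast hr0
  have hdnv : dn (ctrN r ((k, l), 1)) v ≤ r := by
    rw [H904.dn_le_iff]
    unfold ctrN
    simp only
    constructor <;> rw [abs_le] <;> constructor <;> linarith
  have hpQ : ((k, l), (1 : ℤ)) ∈ (net N).filter
        (fun p => (16 * (2 * r : ℕ) : ℤ) ≤ |(ctrN r p).1 - col δ a x0|) := by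
    rw [Finset.mem_filter]
    exact ⟨hkl 1 (Or.inl rfl), off_line hδ a hr0 hδr hoff a1 a2⟩
  by_cases hnx : NX ω (ctrN r ((k, l), 1)) (2 * (2 * r)) (4 * (2 * r)) ≤ K
  · right
    refine ⟨((k, l), 1), hpQ, ⟨v, w, hv, hw, hvw, by omega, ?_, hmv, hmw⟩, hnx⟩
    apply Nat.le_floor
    have h5 := dn_le_dist hδ a v w
    have h6 := hd.trans (min_le_left _ _)
    have h7 : (dn v w : ℝ) ≤ η * M / δ := by
      rw [le_div_iff₀ hδ]
      linarith
    refine h7.trans ?_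
    calc η * M / δ = η * (M / δ) := by ring
      _ ≤ η * R := by gcongr
  · left
    push Not at hnx
    refine many_of_nx S hω ?_ hnx
    push_cast
    rw [← hδdef]
    linarith

/-- **SEP2 from Touch2All** -/
theorem sep2_of (hTA : Touch2All) (hBD : BD) (hh : CROSS hor) (hv : CROSS ver) : SEP2 := by
  classical
  intro Ω hΩ hb hne hsc S x0 ρ hρ ε hε
  obtain ⟨M, hM, hfit⟩ := BD.fits_ev hb S
  obtain ⟨K, hK⟩ := pieces hBD hh hv hΩ hb hne hsc S (ρ := ρ / 400) (ε := ε / 2) (by positivity)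
    (by positivity)
  set N : ℕ := ⌈1600 * M / ρ⌉₊ with hN
  have hNr : 1600 * M / ρ ≤ N := Nat.le_ceil _
  have hcard : (0 : ℝ) < (net N).card := by exact_mod_cast net_card_pos N
  set ε' : ℝ := ε / (2 * (net N).card) with hε'
  have hε'0 : 0 < ε' := by positivity
  set c : ℝ := ρ / (800 * M) with hc
  have hc0 : 0 < c := by positivity
  obtain ⟨η, hη0, R1, hT1⟩ := hTA hΩ hb hne hsc S M hM c ε' hc0 hε'0 K
  refine ⟨min (η * M) (ρ / 1600), lt_min (by positivity) (by positivity), ?_⟩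
  have hd1 : ∀ᶠ n in atTop, S.δ n < M / 2 :=
    S.mesh.eventually (gt_mem_nhds (show (0 : ℝ) < M / 2 by positivity))
  have hd2 : ∀ᶠ n in atTop, S.δ n < ρ / 800 :=
    S.mesh.eventually (gt_mem_nhds (show (0 : ℝ) < ρ / 800 by positivity))
  have hd3 : ∀ᶠ n in atTop, S.δ n < M / (R1 + 1 : ℕ) :=
    S.mesh.eventually (gt_mem_nhds (show (0 : ℝ) < M / (R1 + 1 : ℕ) by positivity))
  filter_upwards [hfit, hK, hd1, hd2, hd3] with n hfit hK hd1 hd2 hd3
  have hδ := S.pos n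
  set δ := S.δ n with hδdef
  set a := S.a n with hadef
  set R : ℕ := ⌈M / δ⌉₊ with hR
  set r : ℕ := ⌊ρ / (400 * δ)⌋₊ with hr
  have hx : 2 ≤ ρ / (400 * δ) := by
    rw [le_div_iff₀ (by positivity)]
    linarith
  have hr1 : ρ / (400 * δ) - 1 < r := Nat.sub_one_lt_floor _
  have hr2 : (r : ℝ) ≤ ρ / (400 * δ) := Nat.floor_le (by positivity)
  have hr3 : ρ / (800 * δ) ≤ r := by
    have : ρ / (800 * δ) = ρ / (400 * δ) / 2 := by
      field_simp
      norm_num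
    rw [this]
    linarith
  have hr0 : 0 < r := by
    have : (0 : ℝ) < r := lt_of_lt_of_le (by positivity) hr3
    exact_mod_cast this
  have hR1 : M / δ ≤ R := Nat.le_ceil _
  have hR2 : (R : ℝ) < M / δ + 1 := Nat.ceil_lt_add_one (by positivity)
  have hMd : 2 < M / δ := by
    rw [lt_div_iff₀ hδ]
    linarith
  have hRmax : R1 ≤ R := by
    have h1 : ((R1 + 1 : ℕ) : ℝ) < M / δ := by
      rw [lt_div_iff₀ hδ]
      rw [lt_div_iff₀ (by positivity)] at hd3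
      linarith
    have h2 : ((R1 + 1 : ℕ) : ℝ) < R := h1.trans_le hR1
    have h3 : R1 + 1 < R := by exact_mod_cast h2
    omega
  have hcR : c * R ≤ (2 * r : ℕ) := by
    push_cast
    have h1 : (R : ℝ) ≤ 2 * (M / δ) := by linarith
    calc c * R ≤ c * (2 * (M / δ)) := by gcongr
      _ = 2 * (ρ / (800 * δ)) := by
        rw [hc]
        field_simp
      _ ≤ 2 * r := by linarith
  have hδr : δ * (400 * r) ≤ ρ := by
    have : ρ / (400 * δ) * (400 * δ) = ρ := by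
      field_simp
    nlinarith
  have hδr' : ρ ≤ δ * (800 * r) := by
    have : ρ / (800 * δ) * (800 * δ) = ρ := by
      field_simp
    nlinarith
  set xS : ℤ := col δ a x0 with hxS
  -- the union bound
  set Q := (net N).filter (fun p => (16 * (2 * r : ℕ) : ℤ) ≤ |(ctrN r p).1 - xS|) with hQ
  have h4 : (R : ℤ) + 1 ≤ N * r := by
    have h3 : (R : ℝ) + 1 ≤ N * r := by
      calc (R : ℝ) + 1 ≤ 2 * (M / δ) := by linarith
        _ = 1600 * M / ρ * (ρ / (800 * δ)) := by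
            field_simp
            norm_num
        _ ≤ N * r := by gcongr
    exact_mod_cast h3
  have hcov : ∀ ω ∈ DD (S.T n).V, Near2 S n x0 ρ (min (η * M) (ρ / 1600)) ω →
      (ManyP S n (ρ / 400) K ω ∨ ∃ p ∈ Q,
        (Touch2 xS (ctrN r p) (2 * r) ⌊η * R⌋₊ ω ∧
          NX ω (ctrN r p) (2 * (2 * r)) (4 * (2 * r)) ≤ K)) := fun ω hω h =>
    cover hη0 hρ hfit hr0 hδr hδr' hR1 h4 hω h
  refine (E.Pr_mono hcov).trans ?_
  refine (E.Pr_or_le _ _ _).trans ?_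
  have h2 := E.Pr_exists_le_card (S.T n).V Q (fun p ω =>
    (Touch2 xS (ctrN r p) (2 * r) ⌊η * R⌋₊ ω ∧
          NX ω (ctrN r p) (2 * (2 * r)) (4 * (2 * r)) ≤ K)) (b := ε') (by
      intro p hp
      have hp2 := (Finset.mem_filter.1 hp).2
      exact hT1 R hRmax (S.T n) hfit ⟨n, rfl, rfl⟩ xS (ctrN r p) (2 * r) hcR hp2)
  have h3 : ((net N).card : ℝ) * ε' = ε / 2 := by
    rw [hε']
    field_simp
  have h4 : (Q.card : ℝ) * ε' ≤ ε / 2 := by
    rw [← h3]
    have : (Q.card : ℝ) ≤ (net N).card := by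
      exact_mod_cast Finset.card_filter_le _ _
    gcongr
  linarith

end Vale.Agent.P155.SW276
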